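import Mathlib

/-!
# The convex/concave box lemma (Gromoll–Meyer reduction without Morse lemma), helper63

`F y n p` is strictly convex in `p`, concave in `n`, and `F y n 0 ≤ F y 0 0 ≤ F y 0 p`.
-/

set_option autoImplicit false

namespace Vale.Agent.P216.H63

open Set Filter Topology Metric

variable {Y N P : Type} [TopologicalSpace Y]
  [NormedAddCommGroup N] [NormedSpace ℝ N]
  [NormedAddCommGroup P] [NormedSpace ℝ P]

/-- convex/concave box over the compact parameter set `S` -/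
structure Box (S : Set Y) (Rn Rp : ℝ) (F : Y → N → P → ℝ) : Prop where
  compact : IsCompact S
  Rn_pos : 0 < Rn
  Rp_pos : 0 < Rp
  cont : ContinuousOn (fun q : Y × N × P => F q.1 q.2.1 q.2.2)
    (S ×ˢ closedBall (0 : N) Rn ×ˢ closedBall (0 : P) Rp)
  conv : ∀ y ∈ S, ∀ n ∈ closedBall (0 : N) Rn, StrictConvexOn ℝ (closedBall (0 : P) Rp) (F y n)
  conc : ∀ y ∈ S, ∀ p ∈ closedBall (0 : P) Rp,
    ConcaveOn ℝ (closedBall (0 : N) Rn) (fun n => F y n p)
  top : ∀ y ∈ S, ∀ n ∈ closedBall (0 : N) Rn, F y n 0 ≤ F y 0 0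
  bot : ∀ y ∈ S, ∀ p ∈ closedBall (0 : P) Rp, F y 0 0 ≤ F y 0 p

/-- `top` and `bot` from a symmetry without fixed vectors -/
theorem top_bot_of_symm {Y N P : Type}
    [NormedAddCommGroup N] [NormedSpace ℝ N] [NormedAddCommGroup P] [NormedSpace ℝ P]
    {S : Set Y} {Rn Rp : ℝ} (hRn : 0 ≤ Rn) (hRp : 0 ≤ Rp) {F : Y → N → P → ℝ}
    {q : ℕ} (hq : 0 < q) (TN : N →ₗ[ℝ] N) (TP : P →ₗ[ℝ] P)
    (hTN : ∀ n, ‖TN n‖ = ‖n‖) (hTP : ∀ p, ‖TP p‖ = ‖p‖)
    (hN : ∀ n, ∑ i ∈ Finset.range q, (TN ^ i) n = 0)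
    (hP : ∀ p, ∑ i ∈ Finset.range q, (TP ^ i) p = 0)
    (hconv : ∀ y ∈ S, ConvexOn ℝ (closedBall (0 : P) Rp) (F y 0))
    (hconc : ∀ y ∈ S, ConcaveOn ℝ (closedBall (0 : N) Rn) (fun n => F y n 0))
    (hF : ∀ y ∈ S, ∀ n ∈ closedBall (0 : N) Rn, ∀ p ∈ closedBall (0 : P) Rp,
      F y (TN n) (TP p) = F y n p) :
    (∀ y ∈ S, ∀ n ∈ closedBall (0 : N) Rn, F y n 0 ≤ F y 0 0) ∧
    (∀ y ∈ S, ∀ p ∈ closedBall (0 : P) Rp, F y 0 0 ≤ F y 0 p) := by
  have hTNi : ∀ (i : ℕ) (n : N), ‖(TN ^ i) n‖ = ‖n‖ := by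
    intro i
    induction i with
    | zero => intro n; simp
    | succ i ih => intro n; rw [pow_succ', Module.End.mul_apply, hTN, ih]
  have hTPi : ∀ (i : ℕ) (p : P), ‖(TP ^ i) p‖ = ‖p‖ := by
    intro i
    induction i with
    | zero => intro p; simp
    | succ i ih => intro p; rw [pow_succ', Module.End.mul_apply, hTP, ih]
  have hFi : ∀ y ∈ S, ∀ n ∈ closedBall (0 : N) Rn, ∀ p ∈ closedBall (0 : P) Rp, ∀ i : ℕ,
      F y ((TN ^ i) n) ((TP ^ i) p) = F y n p := by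
    intro y hy n hn p hp i
    induction i with
    | zero => simp
    | succ i ih =>
      rw [pow_succ', pow_succ', Module.End.mul_apply, Module.End.mul_apply, hF y hy, ih]
      · rw [mem_closedBall_zero_iff, hTNi]; exact mem_closedBall_zero_iff.1 hn
      · rw [mem_closedBall_zero_iff, hTPi]; exact mem_closedBall_zero_iff.1 hp
  have hq0 : (0:ℝ) < q := by exact_mod_cast hq
  have hw : ∑ _i ∈ Finset.range q, (1 / (q:ℝ)) = 1 := by
    rw [Finset.sum_const, Finset.card_range, nsmul_eq_mul]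
    field_simp
  have h0n : (0:N) ∈ closedBall (0 : N) Rn := mem_closedBall_self hRn
  have h0p : (0:P) ∈ closedBall (0 : P) Rp := mem_closedBall_self hRp
  constructor
  · intro y hy n hn
    have h1 := (hconc y hy).le_map_sum (t := Finset.range q) (w := fun _ => 1 / (q:ℝ))
      (p := fun i => (TN ^ i) n) (fun _ _ => by positivity) hw (fun i _ => by
        rw [mem_closedBall_zero_iff, hTNi]; exact mem_closedBall_zero_iff.1 hn)
    have h0 : ∑ i ∈ Finset.range q, (1 / (q:ℝ)) • (TN ^ i) n = 0 := by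
      rw [← Finset.smul_sum, hN, smul_zero]
    rw [h0] at h1
    have h2 : ∀ i ∈ Finset.range q, (1 / (q:ℝ)) • F y ((TN ^ i) n) 0 = (1 / (q:ℝ)) • F y n 0 := by
      intro i _
      have := hFi y hy n hn 0 h0p i
      rw [map_zero] at this
      rw [this]
    rw [Finset.sum_congr rfl h2, ← Finset.sum_smul, hw, one_smul] at h1
    exact h1
  · intro y hy p hp
    have h1 := (hconv y hy).map_sum_le (t := Finset.range q) (w := fun _ => 1 / (q:ℝ))
      (p := fun i => (TP ^ i) p) (fun _ _ => by positivity) hw (fun i _ => by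
        rw [mem_closedBall_zero_iff, hTPi]; exact mem_closedBall_zero_iff.1 hp)
    have h0 : ∑ i ∈ Finset.range q, (1 / (q:ℝ)) • (TP ^ i) p = 0 := by
      rw [← Finset.smul_sum, hP, smul_zero]
    rw [h0] at h1
    have h2 : ∀ i ∈ Finset.range q, (1 / (q:ℝ)) • F y 0 ((TP ^ i) p) = (1 / (q:ℝ)) • F y 0 p := by
      intro i _
      have := hFi y hy 0 h0n p hp i
      rw [map_zero] at this
      rw [this]
    rw [Finset.sum_congr rfl h2, ← Finset.sum_smul, hw, one_smul] at h1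
    exact h1

namespace Box

variable {S : Set Y} {Rn Rp : ℝ} {F : Y → N → P → ℝ}

theorem zero_memN (h : Box S Rn Rp F) : (0:N) ∈ closedBall (0 : N) Rn :=
  mem_closedBall_self h.Rn_pos.le

theorem zero_memP (h : Box S Rn Rp F) : (0:P) ∈ closedBall (0 : P) Rp :=
  mem_closedBall_self h.Rp_pos.le

/-- existence of a minimiser in the convex directions -/
theorem exists_min [FiniteDimensional ℝ P] (h : Box S Rn Rp F) {y : Y} (hy : y ∈ S) {n : N}
    (hn : n ∈ closedBall (0 : N) Rn) :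
    ∃ p ∈ closedBall (0 : P) Rp, ∀ p' ∈ closedBall (0 : P) Rp, F y n p ≤ F y n p' := by
  have hc : ContinuousOn (F y n) (closedBall (0 : P) Rp) := by
    have : F y n = (fun q : Y × N × P => F q.1 q.2.1 q.2.2) ∘ fun p => (y, n, p) := rfl
    rw [this]
    exact h.cont.comp (by fun_prop) fun p hp => ⟨hy, hn, hp⟩
  have := FiniteDimensional.proper ℝ P
  obtain ⟨p, hp, hmin⟩ := (isCompact_closedBall (0:P) Rp).exists_isMinOn
    ⟨0, mem_closedBall_self h.Rp_pos.le⟩ hc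
  exact ⟨p, hp, fun p' hp' => hmin hp'⟩

open Classical in
/-- the minimiser in the convex directions -/
noncomputable def mu (F : Y → N → P → ℝ) (Rp : ℝ) (y : Y) (n : N) : P :=
  if h : ∃ p ∈ closedBall (0 : P) Rp, ∀ p' ∈ closedBall (0 : P) Rp, F y n p ≤ F y n p' then h.choose
  else 0

theorem mu_mem [FiniteDimensional ℝ P] (h : Box S Rn Rp F) {y : Y} (hy : y ∈ S) {n : N}
    (hn : n ∈ closedBall (0 : N) Rn) : mu F Rp y n ∈ closedBall (0 : P) Rp := by
  unfold mu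
  rw [dif_pos (h.exists_min hy hn)]
  exact (h.exists_min hy hn).choose_spec.1

theorem mu_le [FiniteDimensional ℝ P] (h : Box S Rn Rp F) {y : Y} (hy : y ∈ S) {n : N}
    (hn : n ∈ closedBall (0 : N) Rn) {p : P} (hp : p ∈ closedBall (0 : P) Rp) :
    F y n (mu F Rp y n) ≤ F y n p := by
  unfold mu
  rw [dif_pos (h.exists_min hy hn)]
  exact (h.exists_min hy hn).choose_spec.2 p hp

theorem mu_unique [FiniteDimensional ℝ P] (h : Box S Rn Rp F) {y : Y} (hy : y ∈ S) {n : N}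
    (hn : n ∈ closedBall (0 : N) Rn) {p : P} (hp : p ∈ closedBall (0 : P) Rp)
    (hmin : ∀ p' ∈ closedBall (0 : P) Rp, F y n p ≤ F y n p') : mu F Rp y n = p := by
  have h1 := h.mu_mem hy hn
  refine (h.conv y hy n hn).eq_of_isMinOn ?_ ?_ h1 hp
  · exact fun p' hp' => h.mu_le hy hn hp'
  · exact fun p' hp' => hmin p' hp'

theorem mu_zero [FiniteDimensional ℝ P] (h : Box S Rn Rp F) {y : Y} (hy : y ∈ S) :
    mu F Rp y 0 = 0 :=
  h.mu_unique hy h.zero_memN h.zero_memP (h.bot y hy)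

/-- the minimiser is continuous -/
theorem continuousOn_mu [FiniteDimensional ℝ P] (h : Box S Rn Rp F) :
    ContinuousOn (fun q : Y × N => mu F Rp q.1 q.2) (S ×ˢ closedBall (0 : N) Rn) := by
  have := FiniteDimensional.proper ℝ P
  rintro ⟨y, n⟩ ⟨hy, hn⟩
  rw [ContinuousWithinAt, tendsto_iff_ultrafilter]
  intro u hu
  have hu1 : ∀ᶠ q in (u : Filter (Y × N)), q ∈ S ×ˢ closedBall (0 : N) Rn :=
    hu (eventually_mem_nhdsWithin)
  have hu2 : Tendsto (fun q : Y × N => q) (u : Filter (Y × N)) (𝓝 (y, n)) :=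
    tendsto_id'.2 (hu.trans nhdsWithin_le_nhds)
  -- limit of the minimisers
  have hmap : ∀ᶠ q in (u : Filter (Y × N)), mu F Rp q.1 q.2 ∈ closedBall (0:P) Rp := by
    filter_upwards [hu1] with q hq
    exact h.mu_mem hq.1 hq.2
  obtain ⟨p', hp', hlim⟩ := (isCompact_closedBall (0:P) Rp).ultrafilter_le_nhds
    (u.map fun q : Y × N => mu F Rp q.1 q.2) (by
      rw [le_principal_iff]
      exact hmap)
  have hlim' : Tendsto (fun q : Y × N => mu F Rp q.1 q.2) (u : Filter (Y × N)) (𝓝 p') := hlim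
  have key : ∀ p ∈ closedBall (0:P) Rp, F y n p' ≤ F y n p := by
    intro p hp
    have t1 : Tendsto (fun q : Y × N => F q.1 q.2 (mu F Rp q.1 q.2)) (u : Filter (Y × N))
        (𝓝 (F y n p')) := by
      have hc := h.cont (y, n, p') ⟨hy, hn, hp'⟩
      have ht : Tendsto (fun q : Y × N => (q.1, q.2, mu F Rp q.1 q.2)) (u : Filter (Y × N))
          (𝓝[S ×ˢ closedBall (0 : N) Rn ×ˢ closedBall (0 : P) Rp] (y, n, p')) := by
        rw [tendsto_nhdsWithin_iff]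
        refine ⟨?_, ?_⟩
        · have h1 : Tendsto (fun q : Y × N => q.1) (u : Filter (Y × N)) (𝓝 y) :=
            (continuous_fst.tendsto (y, n)).comp hu2
          have h2 : Tendsto (fun q : Y × N => q.2) (u : Filter (Y × N)) (𝓝 n) :=
            (continuous_snd.tendsto (y, n)).comp hu2
          exact h1.prodMk_nhds (h2.prodMk_nhds hlim')
        · filter_upwards [hu1, hmap] with q hq hq2
          exact ⟨hq.1, hq.2, hq2⟩
      exact hc.tendsto.comp ht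
    have t2 : Tendsto (fun q : Y × N => F q.1 q.2 p) (u : Filter (Y × N)) (𝓝 (F y n p)) := by
      have hc := h.cont (y, n, p) ⟨hy, hn, hp⟩
      have ht : Tendsto (fun q : Y × N => (q.1, q.2, p)) (u : Filter (Y × N))
          (𝓝[S ×ˢ closedBall (0 : N) Rn ×ˢ closedBall (0 : P) Rp] (y, n, p)) := by
        rw [tendsto_nhdsWithin_iff]
        refine ⟨?_, ?_⟩
        · have h1 : Tendsto (fun q : Y × N => q.1) (u : Filter (Y × N)) (𝓝 y) :=
            (continuous_fst.tendsto (y, n)).comp hu2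
          have h2 : Tendsto (fun q : Y × N => q.2) (u : Filter (Y × N)) (𝓝 n) :=
            (continuous_snd.tendsto (y, n)).comp hu2
          exact h1.prodMk_nhds (h2.prodMk_nhds tendsto_const_nhds)
        · filter_upwards [hu1] with q hq
          exact ⟨hq.1, hq.2, hp⟩
      exact hc.tendsto.comp ht
    refine le_of_tendsto_of_tendsto t1 t2 ?_
    filter_upwards [hu1] with q hq
    exact h.mu_le hq.1 hq.2 hp
  have : mu F Rp y n = p' := h.mu_unique hy hn hp' key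
  change Tendsto (fun q : Y × N => mu F Rp q.1 q.2) (u : Filter (Y × N)) (𝓝 (mu F Rp y n))
  rw [this]
  exact hlim'

/-- the minimal value in the convex directions -/
noncomputable def ee (F : Y → N → P → ℝ) (Rp : ℝ) (y : Y) (n : N) : ℝ := F y n (mu F Rp y n)

theorem continuousOn_ee [FiniteDimensional ℝ P] (h : Box S Rn Rp F) :
    ContinuousOn (fun q : Y × N => ee F Rp q.1 q.2) (S ×ˢ closedBall (0 : N) Rn) := by
  have : (fun q : Y × N => ee F Rp q.1 q.2) = (fun q : Y × N × P => F q.1 q.2.1 q.2.2) ∘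
      fun q : Y × N => (q.1, q.2, mu F Rp q.1 q.2) := rfl
  rw [this]
  refine h.cont.comp (continuousOn_fst.prodMk (continuousOn_snd.prodMk h.continuousOn_mu)) ?_
  rintro ⟨y, n⟩ ⟨hy, hn⟩
  exact ⟨hy, hn, h.mu_mem hy hn⟩

theorem ee_zero [FiniteDimensional ℝ P] (h : Box S Rn Rp F) {y : Y} (hy : y ∈ S) :
    ee F Rp y 0 = F y 0 0 := by
  unfold ee
  rw [h.mu_zero hy]

theorem ee_le_top [FiniteDimensional ℝ P] (h : Box S Rn Rp F) {y : Y} (hy : y ∈ S) {n : N}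
    (hn : n ∈ closedBall (0 : N) Rn) : ee F Rp y n ≤ F y 0 0 :=
  (h.mu_le hy hn h.zero_memP).trans (h.top y hy n hn)

theorem ee_le [FiniteDimensional ℝ P] (h : Box S Rn Rp F) {y : Y} (hy : y ∈ S) {n : N}
    (hn : n ∈ closedBall (0 : N) Rn) {p : P} (hp : p ∈ closedBall (0 : P) Rp) :
    ee F Rp y n ≤ F y n p := h.mu_le hy hn hp

/-- `ee` is concave along rays through `0`; it decreases outwards -/
theorem ee_outward [FiniteDimensional ℝ P] (h : Box S Rn Rp F) {y : Y} (hy : y ∈ S) {n : N} {c : ℝ}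
    (hc : 1 ≤ c) (hcn : c • n ∈ closedBall (0 : N) Rn) : ee F Rp y (c • n) ≤ ee F Rp y n := by
  have hc0 : 0 < c := by linarith
  have hn : n ∈ closedBall (0 : N) Rn := by
    rw [mem_closedBall_zero_iff] at hcn ⊢
    rw [norm_smul, Real.norm_of_nonneg hc0.le] at hcn
    nlinarith [norm_nonneg n]
  set p := mu F Rp y n with hp
  have hpm := h.mu_mem hy hn
  have ha : 0 ≤ 1 / c := by positivity
  have hb : 0 ≤ 1 - 1 / c := by rw [sub_nonneg, div_le_one hc0]; exact hc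
  have h1 := (h.conc y hy p hpm).2 hcn h.zero_memN ha hb (by ring)
  have h2 : (1 / c) • (c • n) + (1 - 1 / c) • (0:N) = n := by
    rw [smul_smul, smul_zero, add_zero, one_div, inv_mul_cancel₀ hc0.ne', one_smul]
  rw [h2] at h1
  have h3 : ee F Rp y (c • n) ≤ F y (c • n) p := h.ee_le hy hcn hpm
  have h4 : ee F Rp y (c • n) ≤ F y 0 p :=
    (h.ee_le_top hy hcn).trans (h.bot y hy p hpm)
  have h5 : 0 ≤ 1 - 1 / c := by rw [sub_nonneg, div_le_one hc0]; exact hc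
  have h6 : 0 < 1 / c := by positivity
  simp only [smul_eq_mul] at h1
  have h7 : ee F Rp y (c • n) = (1 / c) * ee F Rp y (c • n) + (1 - 1 / c) * ee F Rp y (c • n) := by
    ring
  rw [h7]
  calc (1 / c) * ee F Rp y (c • n) + (1 - 1 / c) * ee F Rp y (c • n)
      ≤ (1 / c) * F y (c • n) p + (1 - 1 / c) * F y 0 p := by gcongr
    _ ≤ F y n p := h1
    _ = ee F Rp y n := rfl

/-- depth in the concave directions, cut off at `1` -/
noncomputable def lam (F : Y → N → P → ℝ) (Rp η : ℝ) (y : Y) (n : N) : ℝ :=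
  min 1 ((F y 0 0 - ee F Rp y n) / η)

theorem continuousOn_F00 (h : Box S Rn Rp F) : ContinuousOn (fun y => F y 0 0) S := by
  have : (fun y => F y 0 0) = (fun q : Y × N × P => F q.1 q.2.1 q.2.2) ∘
      fun y : Y => (y, (0:N), (0:P)) := rfl
  rw [this]
  exact h.cont.comp (by fun_prop) fun y hy => ⟨hy, h.zero_memN, h.zero_memP⟩

theorem continuousOn_lam [FiniteDimensional ℝ P] (h : Box S Rn Rp F) {η : ℝ} :
    ContinuousOn (fun q : Y × N => lam F Rp η q.1 q.2) (S ×ˢ closedBall (0 : N) Rn) := by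
  unfold lam
  refine ContinuousOn.inf continuousOn_const (ContinuousOn.div_const (ContinuousOn.sub ?_
    h.continuousOn_ee) η)
  exact h.continuousOn_F00.comp continuousOn_fst fun q hq => hq.1

theorem lam_nonneg [FiniteDimensional ℝ P] (h : Box S Rn Rp F) {η : ℝ} (hη : 0 < η) {y : Y}
    (hy : y ∈ S) {n : N} (hn : n ∈ closedBall (0 : N) Rn) : 0 ≤ lam F Rp η y n :=
  le_min zero_le_one (div_nonneg (sub_nonneg.2 (h.ee_le_top hy hn)) hη.le)

theorem lam_le_one (η : ℝ) (y : Y) (n : N) : lam F Rp η y n ≤ 1 := min_le_left _ _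

theorem lam_zero [FiniteDimensional ℝ P] (h : Box S Rn Rp F) {η : ℝ} {y : Y} (hy : y ∈ S) :
    lam F Rp η y 0 = 0 := by
  unfold lam
  rw [h.ee_zero hy, sub_self, zero_div]
  exact min_eq_right zero_le_one

/-- the outward push in the concave directions -/
noncomputable def nu (F : Y → N → P → ℝ) (Rn Rp η : ℝ) (s : ℝ) (y : Y) (n : N) : N :=
  (1 + s * lam F Rp η y n * (Rn / ‖n‖ - 1)) • n

theorem nu_zero (η : ℝ) (y : Y) (n : N) : nu F Rn Rp η 0 y n = n := by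
  unfold nu
  rw [zero_mul, zero_mul, add_zero, one_smul]

theorem one_le_factor [FiniteDimensional ℝ P] (h : Box S Rn Rp F) {η : ℝ} (hη : 0 < η) {s : ℝ}
    (hs : s ∈ Icc (0:ℝ) 1) {y : Y} (hy : y ∈ S) {n : N} (hn : n ∈ closedBall (0 : N) Rn)
    (hn0 : n ≠ 0) : 1 ≤ 1 + s * lam F Rp η y n * (Rn / ‖n‖ - 1) := by
  have h1 : 0 < ‖n‖ := norm_pos_iff.2 hn0
  have h2 : 0 ≤ Rn / ‖n‖ - 1 := by
    rw [sub_nonneg, le_div_iff₀ h1, one_mul]
    exact mem_closedBall_zero_iff.1 hn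
  have h3 := mul_nonneg (mul_nonneg hs.1 (h.lam_nonneg hη hy hn)) h2
  linarith

theorem norm_nu [FiniteDimensional ℝ P] (h : Box S Rn Rp F) {η : ℝ} (hη : 0 < η) {s : ℝ}
    (hs : s ∈ Icc (0:ℝ) 1) {y : Y} (hy : y ∈ S) {n : N} (hn : n ∈ closedBall (0 : N) Rn)
    (hn0 : n ≠ 0) : ‖nu F Rn Rp η s y n‖ =
      (1 - s * lam F Rp η y n) * ‖n‖ + s * lam F Rp η y n * Rn := by
  have h1 : 0 < ‖n‖ := norm_pos_iff.2 hn0
  unfold nu
  rw [norm_smul, Real.norm_of_nonneg (by linarith [h.one_le_factor hη hs hy hn hn0])]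
  field_simp
  ring

theorem nu_mem [FiniteDimensional ℝ P] (h : Box S Rn Rp F) {η : ℝ} (hη : 0 < η) {s : ℝ}
    (hs : s ∈ Icc (0:ℝ) 1) {y : Y} (hy : y ∈ S) {n : N} (hn : n ∈ closedBall (0 : N) Rn) :
    nu F Rn Rp η s y n ∈ closedBall (0 : N) Rn := by
  by_cases hn0 : n = 0
  · subst hn0
    unfold nu
    rw [smul_zero]
    exact h.zero_memN
  rw [mem_closedBall_zero_iff, h.norm_nu hη hs hy hn hn0]
  have h1 := mem_closedBall_zero_iff.1 hn
  have h2 : s * lam F Rp η y n ≤ 1 := by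
    have := lam_le_one (F := F) (Rp := Rp) η y n
    have h3 := h.lam_nonneg hη hy hn
    nlinarith [hs.1, hs.2]
  nlinarith

/-- the sphere is preserved -/
theorem nu_sphere [FiniteDimensional ℝ P] (h : Box S Rn Rp F) {η : ℝ} (hη : 0 < η) {s : ℝ}
    (hs : s ∈ Icc (0:ℝ) 1) {y : Y} (hy : y ∈ S) {n : N} (hn : ‖n‖ = Rn) :
    ‖nu F Rn Rp η s y n‖ = Rn := by
  have hn0 : n ≠ 0 := by
    intro h0
    rw [h0, norm_zero] at hn
    exact absurd hn h.Rn_pos.ne
  rw [h.norm_nu hη hs hy (mem_closedBall_zero_iff.2 hn.le) hn0, hn]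
  ring

/-- `ee` does not increase under the push -/
theorem ee_nu_le [FiniteDimensional ℝ P] (h : Box S Rn Rp F) {η : ℝ} (hη : 0 < η) {s : ℝ}
    (hs : s ∈ Icc (0:ℝ) 1) {y : Y} (hy : y ∈ S) {n : N} (hn : n ∈ closedBall (0 : N) Rn) :
    ee F Rp y (nu F Rn Rp η s y n) ≤ ee F Rp y n := by
  by_cases hn0 : n = 0
  · subst hn0
    unfold nu
    rw [smul_zero]
  exact h.ee_outward hy (h.one_le_factor hη hs hy hn hn0) (h.nu_mem hη hs hy hn)

/-- after the push a point is on the sphere or over a low point of the base -/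
theorem nu_one [FiniteDimensional ℝ P] (h : Box S Rn Rp F) {η : ℝ} (hη : 0 < η) {y : Y} (hy : y ∈ S)
    {n : N} (hn : n ∈ closedBall (0 : N) Rn) :
    ‖nu F Rn Rp η 1 y n‖ = Rn ∨ F y 0 0 ≤ ee F Rp y n + η := by
  by_cases hl : η ≤ F y 0 0 - ee F Rp y n
  · left
    have hlam : lam F Rp η y n = 1 := by
      unfold lam
      apply min_eq_left
      rw [le_div_iff₀ hη, one_mul]
      exact hl
    have hn0 : n ≠ 0 := by
      intro h0
      rw [h0, h.ee_zero hy, sub_self] at hl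
      linarith
    rw [h.norm_nu hη ⟨zero_le_one, le_rfl⟩ hy hn hn0, hlam]
    ring
  · right
    linarith [not_le.1 hl]

theorem continuousOn_nu [FiniteDimensional ℝ P] (h : Box S Rn Rp F) {η : ℝ} (hη : 0 < η) :
    ContinuousOn (fun q : ℝ × Y × N => nu F Rn Rp η q.1 q.2.1 q.2.2)
      (Icc (0:ℝ) 1 ×ˢ S ×ˢ closedBall (0 : N) Rn) := by
  have hl : ContinuousOn (fun q : ℝ × Y × N => lam F Rp η q.2.1 q.2.2)
      (Icc (0:ℝ) 1 ×ˢ S ×ˢ closedBall (0 : N) Rn) :=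
    (h.continuousOn_lam (η := η)).comp continuousOn_snd fun q hq => hq.2
  rintro ⟨s, y, n⟩ ⟨hs, hy, hn⟩
  by_cases hn0 : n = 0
  · subst hn0
    -- continuity at the centre
    have h1 : nu F Rn Rp η s y (0:N) = 0 := by unfold nu; rw [smul_zero]
    change Tendsto (fun q : ℝ × Y × N => nu F Rn Rp η q.1 q.2.1 q.2.2)
      (𝓝[Icc (0:ℝ) 1 ×ˢ S ×ˢ closedBall (0 : N) Rn] (s, y, 0)) (𝓝 (nu F Rn Rp η s y 0))
    rw [h1]
    have h2 : Tendsto (fun q : ℝ × Y × N => ‖q.2.2‖ + lam F Rp η q.2.1 q.2.2 * Rn)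
        (𝓝[Icc (0:ℝ) 1 ×ˢ S ×ˢ closedBall (0 : N) Rn] (s, y, 0)) (𝓝 0) := by
      have t1 := (hl (s, y, 0) ⟨hs, hy, hn⟩).tendsto
      rw [h.lam_zero hy] at t1
      have t2 : Tendsto (fun q : ℝ × Y × N => ‖q.2.2‖)
          (𝓝[Icc (0:ℝ) 1 ×ˢ S ×ˢ closedBall (0 : N) Rn] (s, y, 0)) (𝓝 0) := by
        have : Tendsto (fun q : ℝ × Y × N => ‖q.2.2‖) (𝓝 (s, y, (0:N))) (𝓝 ‖(0:N)‖) :=
          (by fun_prop : Continuous fun q : ℝ × Y × N => ‖q.2.2‖).tendsto _
        rw [norm_zero] at this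
        exact this.mono_left nhdsWithin_le_nhds
      have t3 := t2.add (t1.mul_const Rn)
      simpa using t3
    refine squeeze_zero_norm' ?_ h2
    filter_upwards [self_mem_nhdsWithin] with q hq
    obtain ⟨hs', hy', hn'⟩ := hq
    by_cases hq0 : q.2.2 = 0
    · have : nu F Rn Rp η q.1 q.2.1 q.2.2 = 0 := by unfold nu; rw [hq0, smul_zero]
      rw [this, norm_zero]
      have := h.lam_nonneg hη hy' hn'
      have h3 := h.Rn_pos.le
      positivity
    rw [h.norm_nu hη hs' hy' hn' hq0]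
    have h3 := h.lam_nonneg hη hy' hn'
    have h4 := norm_nonneg q.2.2
    have h5 := h.Rn_pos.le
    have h6 : q.1 * lam F Rp η q.2.1 q.2.2 ≤ lam F Rp η q.2.1 q.2.2 := by
      have := hs'.2
      nlinarith
    have h7 : 0 ≤ q.1 * lam F Rp η q.2.1 q.2.2 := mul_nonneg hs'.1 h3
    nlinarith [mul_le_mul_of_nonneg_right h6 h5, mul_nonneg h7 h4]
  · have h1 : ContinuousWithinAt (fun q : ℝ × Y × N => Rn / ‖q.2.2‖ - 1)
        (Icc (0:ℝ) 1 ×ˢ S ×ˢ closedBall (0 : N) Rn) (s, y, n) := by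
      refine ContinuousWithinAt.sub (ContinuousWithinAt.div continuousWithinAt_const ?_ ?_)
        continuousWithinAt_const
      · exact (by fun_prop : Continuous fun q : ℝ × Y × N => ‖q.2.2‖).continuousWithinAt
      · exact norm_ne_zero_iff.2 hn0
    have h2 : ContinuousWithinAt (fun q : ℝ × Y × N =>
        1 + q.1 * lam F Rp η q.2.1 q.2.2 * (Rn / ‖q.2.2‖ - 1))
        (Icc (0:ℝ) 1 ×ˢ S ×ˢ closedBall (0 : N) Rn) (s, y, n) :=
      continuousWithinAt_const.add ((continuous_fst.continuousWithinAt.mul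
        (hl (s, y, n) ⟨hs, hy, hn⟩)).mul h1)
    exact h2.smul (by fun_prop : Continuous fun q : ℝ × Y × N => q.2.2).continuousWithinAt

/-! ### the two homotopies -/

/-- the box -/
def bx (S : Set Y) (Rn Rp : ℝ) : Set (Y × N × P) :=
  S ×ˢ closedBall (0 : N) Rn ×ˢ closedBall (0 : P) Rp

/-- first homotopy: to the graph of the minimiser -/
noncomputable def hA (F : Y → N → P → ℝ) (Rp : ℝ) (s : ℝ) (q : Y × N × P) : Y × N × P :=
  (q.1, q.2.1, (1 - s) • q.2.2 + s • mu F Rp q.1 q.2.1)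

/-- second homotopy: outward push along the graph -/
noncomputable def hB (F : Y → N → P → ℝ) (Rn Rp η : ℝ) (s : ℝ) (q : Y × N × P) : Y × N × P :=
  (q.1, nu F Rn Rp η s q.1 q.2.1, mu F Rp q.1 (nu F Rn Rp η s q.1 q.2.1))

theorem hA_zero (q : Y × N × P) : hA F Rp 0 q = q := by
  unfold hA
  simp

theorem hB_zero (η : ℝ) (q : Y × N × P) : hB F Rn Rp η 0 q = hA F Rp 1 q := by
  unfold hB hA
  rw [nu_zero]
  simp

theorem hA_mem [FiniteDimensional ℝ P] (h : Box S Rn Rp F) {s : ℝ} (hs : s ∈ Icc (0:ℝ) 1)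
    {q : Y × N × P} (hq : q ∈ bx S Rn Rp) : hA F Rp s q ∈ bx S Rn Rp := by
  obtain ⟨hy, hn, hp⟩ := hq
  refine ⟨hy, hn, ?_⟩
  exact convex_closedBall (0:P) Rp hp (h.mu_mem hy hn) (by linarith [hs.2]) hs.1 (by ring)

theorem hB_mem [FiniteDimensional ℝ P] (h : Box S Rn Rp F) {η : ℝ} (hη : 0 < η) {s : ℝ}
    (hs : s ∈ Icc (0:ℝ) 1) {q : Y × N × P} (hq : q ∈ bx S Rn Rp) :
    hB F Rn Rp η s q ∈ bx S Rn Rp := by
  obtain ⟨hy, hn, hp⟩ := hq
  exact ⟨hy, h.nu_mem hη hs hy hn, h.mu_mem hy (h.nu_mem hη hs hy hn)⟩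

theorem hA_le [FiniteDimensional ℝ P] (h : Box S Rn Rp F) {s : ℝ} (hs : s ∈ Icc (0:ℝ) 1)
    {q : Y × N × P} (hq : q ∈ bx S Rn Rp) :
    F (hA F Rp s q).1 (hA F Rp s q).2.1 (hA F Rp s q).2.2 ≤ F q.1 q.2.1 q.2.2 := by
  obtain ⟨hy, hn, hp⟩ := hq
  have h1 := (h.conv _ hy _ hn).convexOn.2 hp (h.mu_mem hy hn) (sub_nonneg.2 hs.2) hs.1 (by ring)
  refine h1.trans ?_
  have h2 := h.mu_le hy hn hp
  simp only [smul_eq_mul]
  nlinarith [hs.1]

theorem hB_le [FiniteDimensional ℝ P] (h : Box S Rn Rp F) {η : ℝ} (hη : 0 < η) {s : ℝ}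
    (hs : s ∈ Icc (0:ℝ) 1) {q : Y × N × P} (hq : q ∈ bx S Rn Rp) :
    F (hB F Rn Rp η s q).1 (hB F Rn Rp η s q).2.1 (hB F Rn Rp η s q).2.2 ≤
      F q.1 q.2.1 q.2.2 := by
  obtain ⟨hy, hn, hp⟩ := hq
  exact (h.ee_nu_le hη hs hy hn).trans (h.mu_le hy hn hp)

theorem continuousOn_hA [FiniteDimensional ℝ P] (h : Box S Rn Rp F) :
    ContinuousOn (fun z : ℝ × Y × N × P => hA F Rp z.1 z.2) (Icc (0:ℝ) 1 ×ˢ bx S Rn Rp) := by
  have h1 : ContinuousOn (fun z : ℝ × Y × N × P => mu F Rp z.2.1 z.2.2.1)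
      (Icc (0:ℝ) 1 ×ˢ bx S Rn Rp) := by
    have : (fun z : ℝ × Y × N × P => mu F Rp z.2.1 z.2.2.1) =
        (fun q : Y × N => mu F Rp q.1 q.2) ∘ fun z : ℝ × Y × N × P => (z.2.1, z.2.2.1) := rfl
    rw [this]
    exact h.continuousOn_mu.comp (by fun_prop) fun z hz => ⟨hz.2.1, hz.2.2.1⟩
  unfold hA
  refine ContinuousOn.prodMk (by fun_prop) (ContinuousOn.prodMk (by fun_prop) ?_)
  exact ContinuousOn.add (by fun_prop) (ContinuousOn.smul (by fun_prop) h1)

theorem continuousOn_hB [FiniteDimensional ℝ P] (h : Box S Rn Rp F) {η : ℝ} (hη : 0 < η) :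
    ContinuousOn (fun z : ℝ × Y × N × P => hB F Rn Rp η z.1 z.2) (Icc (0:ℝ) 1 ×ˢ bx S Rn Rp) := by
  have h1 : ContinuousOn (fun z : ℝ × Y × N × P => nu F Rn Rp η z.1 z.2.1 z.2.2.1)
      (Icc (0:ℝ) 1 ×ˢ bx S Rn Rp) := by
    have : (fun z : ℝ × Y × N × P => nu F Rn Rp η z.1 z.2.1 z.2.2.1) =
        (fun q : ℝ × Y × N => nu F Rn Rp η q.1 q.2.1 q.2.2) ∘
          fun z : ℝ × Y × N × P => (z.1, z.2.1, z.2.2.1) := rfl
    rw [this]
    exact (h.continuousOn_nu hη).comp (by fun_prop) fun z hz => ⟨hz.1, hz.2.1, hz.2.2.1⟩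
  have h2 : ContinuousOn (fun z : ℝ × Y × N × P =>
      mu F Rp z.2.1 (nu F Rn Rp η z.1 z.2.1 z.2.2.1)) (Icc (0:ℝ) 1 ×ˢ bx S Rn Rp) := by
    have : (fun z : ℝ × Y × N × P => mu F Rp z.2.1 (nu F Rn Rp η z.1 z.2.1 z.2.2.1)) =
        (fun q : Y × N => mu F Rp q.1 q.2) ∘
          fun z : ℝ × Y × N × P => (z.2.1, nu F Rn Rp η z.1 z.2.1 z.2.2.1) := rfl
    rw [this]
    refine h.continuousOn_mu.comp (ContinuousOn.prodMk (by fun_prop) h1) fun z hz => ?_
    exact ⟨hz.2.1, h.nu_mem hη hz.1 hz.2.1 hz.2.2.1⟩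
  unfold hB
  exact ContinuousOn.prodMk (by fun_prop) (ContinuousOn.prodMk h1 h2)

/-- the end of the second homotopy -/
theorem hB_one [FiniteDimensional ℝ P] (h : Box S Rn Rp F) {η : ℝ} (hη : 0 < η)
    {q : Y × N × P} (hq : q ∈ bx S Rn Rp) :
    ‖(hB F Rn Rp η 1 q).2.1‖ = Rn ∨ F q.1 0 0 ≤ F q.1 q.2.1 q.2.2 + η := by
  obtain ⟨hy, hn, hp⟩ := hq
  rcases h.nu_one hη hy hn with h1 | h1
  · exact Or.inl h1
  · exact Or.inr (h1.trans (by linarith [h.ee_le hy hn hp]))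

theorem hB_sphere [FiniteDimensional ℝ P] (h : Box S Rn Rp F) {η : ℝ} (hη : 0 < η) {s : ℝ}
    (hs : s ∈ Icc (0:ℝ) 1) {q : Y × N × P} (hq : q ∈ bx S Rn Rp) (hqn : ‖q.2.1‖ = Rn) :
    ‖(hB F Rn Rp η s q).2.1‖ = Rn := h.nu_sphere hη hs hq.1 hqn

end Box

end Vale.Agent.P216.H63
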